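import Vale.Agent.P338.H921.T2Result
import Vale.Agent.P338.GS.Avail2

/-!
# P338: integer multiplication is at least as hard as matrix transposition, for all shapes

Every machine that multiplies yields machines that transpose square bit matrices, rectangular
bit matrices of every shape, and matrices with entries of `w` bits, almost as fast as the given
machine multiplies numbers with as many bits as the matrix has: the difference is at most
`O(N (log log N + 1))`, where `N` is the number of bits. Hence lower bounds for transpositions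
give the same lower bounds for the multiplication, in particular the bound `c * n * log n` of
Question 1.
-/

open Vale.Agent.P338 Vale.Agent.P338.GS.Top in
/-- Let `A` be any machine that multiplies.
(1) Some machine transposes `n × n` bit matrices in time `O(T_A(n²) + n² (log log n + 1))`.
(2) Some machine transposes `a × b` bit matrices in time `O(T_A(ab) + ab (log log (ab) + 1))`,
uniformly in `a` and `b`.
(3) Some machine transposes `a × b` matrices of entries of `w` bits in time
`O(T_A(abw) + abw (log log (ab) + 1))`, uniformly in `a`, `b`, `w`.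
(4) If `T_A(m) / m` is nondecreasing up to a constant factor, then the double logarithm in (1),
(2), (3) can be replaced by any iterated logarithm, and in (3) the last term vanishes for words
of length `w ≥ 2 (size a + size b)`.
(5) Let `φ` grow faster than the double logarithm. If every machine that transposes squares needs
at least `c * n² * φ(n)` steps, then `T_A(n²) ≥ c * n² * φ(n)` for large `n`; if, for some
`δ > 0`, every machine that transposes rectangles needs at least `c * a² * φ(a)` steps for
`a ≤ b ≤ (1 + δ) a`, then `T_A(n) ≥ c * n * φ(⌊√n⌋)` for large `n`.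
(6) The same transfer along every sequence of shapes, for rectangles and for words.
(7) If every machine that transposes squares needs at least `c * n² * log n` steps, then
`T_A(k) ≥ c * n * log n` for some `k` in `[n - 2 √n, n]`, for all large `n`, and
`T_A(n) ≥ c * n * log n` for all large `n` if `T_A(m) ≤ M * T_A(n)` for `m ≤ n ≤ 2 m`.
(8) If, for some `δ > 0`, every machine that transposes rectangles needs at least
`c * a² * log a` steps for `a ≤ b ≤ (1 + δ) a`, then `T_A(n) ≥ c * n * log n` for large `n`. -/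
theorem Vale.Agent.Results.P338.TranspositionAllShapes.result (A : TM) (hA : Multiplies A) :
    (∃ (B : TM) (C : ℕ), Transposes B ∧ ∀ n : ℕ, 1 ≤ n →
      transTime B n ≤ C * (mulTime A (n ^ 2) + n ^ 2 * lam n)) ∧
    (∃ (B : TM) (C : ℕ), TransposesRect B ∧ ∀ a b : ℕ, 1 ≤ a → 1 ≤ b →
      rectTime B a b ≤ C * (mulTime A (a * b) + a * b * lam (a * b))) ∧
    (∃ (B : TM) (C : ℕ), TransposesEnt B ∧ ∀ a b w : ℕ, 1 ≤ a → 1 ≤ b → 1 ≤ w →
      entTime B a b w ≤ C * (mulTime A (a * b * w) + a * b * w * lam (a * b))) ∧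
    (Regular (mulTime A) → ∀ j : ℕ,
      (∃ (B : TM) (C : ℕ), Transposes B ∧ ∀ n : ℕ, 1 ≤ n →
        transTime B n ≤ C * (mulTime A (n ^ 2) + n ^ 2 * (Nat.log 2)^[j] n)) ∧
      (∃ (B : TM) (C : ℕ), TransposesRect B ∧ ∀ a b : ℕ, 1 ≤ a → 1 ≤ b →
        rectTime B a b ≤ C * (mulTime A (a * b) + a * b * (Nat.log 2)^[j] (a * b))) ∧
      ∃ (B : TM) (C : ℕ), TransposesEnt B ∧
        (∀ a b w : ℕ, 1 ≤ a → 1 ≤ b → 1 ≤ w → entTime B a b w ≤
          C * (mulTime A (a * b * w) + a * b * w * (Nat.log 2)^[j] (a * b))) ∧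
        ∀ a b w : ℕ, 1 ≤ a → 1 ≤ b → 2 * (Nat.size a + Nat.size b) ≤ w →
          entTime B a b w ≤ C * mulTime A (a * b * w)) ∧
    (∀ φ : ℕ → ℝ, Small lam φ →
      ((∀ B : TM, Transposes B → AtLeast (fun n => (n : ℝ) ^ 2 * φ n) (transTime B)) →
        AtLeast (fun n => (n : ℝ) ^ 2 * φ n) fun n => mulTime A (n ^ 2)) ∧
      ∀ δ : ℝ, 0 < δ → (∀ B : TM, TransposesRect B → NearAtLeast δ φ B) →
        AtLeast (fun n => n * φ (Nat.sqrt n)) (mulTime A)) ∧
    (∀ (φ : ℕ → ℝ) (a b w : ℕ → ℕ), (∀ i, 1 ≤ a i) → (∀ i, 1 ≤ b i) → (∀ i, 1 ≤ w i) →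
      Small (fun i => lam (a i * b i)) φ →
      ((∀ B : TM, TransposesRect B →
          AtLeast (fun i => (a i * b i : ℕ) * φ i) fun i => rectTime B (a i) (b i)) →
        AtLeast (fun i => (a i * b i : ℕ) * φ i) fun i => mulTime A (a i * b i)) ∧
      ((∀ B : TM, TransposesEnt B → AtLeast (fun i => (a i * b i * w i : ℕ) * φ i)
          fun i => entTime B (a i) (b i) (w i)) →
        AtLeast (fun i => (a i * b i * w i : ℕ) * φ i)
          fun i => mulTime A (a i * b i * w i))) ∧
    ((∀ B : TM, Transposes B →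
        AtLeast (fun n => (n : ℝ) ^ 2 * Real.log n) (transTime B)) →
      (∃ c : ℝ, 0 < c ∧ ∃ N : ℕ, ∀ n : ℕ, N ≤ n → ∃ k : ℕ, k ≤ n ∧
        n ≤ k + 2 * Nat.sqrt n ∧ c * (n * Real.log n) ≤ mulTime A k) ∧
      ((∃ M : ℕ, ∀ m n : ℕ, m ≤ n → n ≤ 2 * m → mulTime A m ≤ M * mulTime A n) →
        AtLeast (fun n => n * Real.log n) (mulTime A))) ∧
    ∀ δ : ℝ, 0 < δ →
      (∀ B : TM, TransposesRect B → NearAtLeast δ (fun n => Real.log n) B) →
      AtLeast (fun n => n * Real.log n) (mulTime A) :=
  result_of (fun _ => GS.availG2_of) A hA
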